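import Mathlib
import Vale.Agent.Lib.P314.Defs
import Vale.Agent.Lib.P314.Sparse

namespace Vale.Agent.Results.P314.ProductOfSparse

open Vale.Agent.Lib.P314

/-- For every field `F` and all `n`, `s`, `t`, the explicit list `family F n s t` of
`numModuli n s t = 2 (n + 2) s (1 + t^2 s)` tuples of 0/1 matrices, each of dimension at most
`(s + 1) (s * numModuli n s t + 1)`, is a hitting set for the polynomials computed by
noncommutative formulas of size at most `s` that are products (nested multiplication gates) of
subformulas having at most `t` monomials in their formal expansion. -/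
theorem result (F : Type*) [Field F] (n s t : ℕ) :
    (family F n s t).length = numModuli n s t ∧
    (∀ T ∈ family F n s t, T.1 ≤ (s + 1) * (s * numModuli n s t + 1)) ∧
    IsHittingSet (family F n s t)
      {f | ∃ a : NCFormula F n, a.size ≤ s ∧ a.ProdOfSparse t ∧ a.poly = f} := by
  refine ⟨by simp [family], fun T hT => family_dim_le s t T hT, ?_⟩
  rintro f ⟨a, hs, hp, rfl⟩ hne
  exact family_hits s t a hs hp hne

end Vale.Agent.Results.P314.ProductOfSparse
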